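import Vale.Agent.P335.Square
import Vale.Agent.P335.Chain

/-!
The switch chain on simple graphs with any given degree vector mixes in polynomial time.
-/

namespace Vale.Agent.Results.P335.SwitchRapidMixing

open Vale.Agent.P335

/-- Rapid mixing of the switch chain, uniformly over all degree vectors. -/
theorem result : ∃ C k : ℕ, ∀ n : ℕ, 4 ≤ n → ∀ d : Fin n → ℕ,
    ∀ t : ℕ, C * n ^ k ≤ t → ∀ G : Graphs d, distUniform d t G ≤ 1 / 4 := by
  obtain ⟨C, k, h⟩ := mixing_of_trade_gap
  exact ⟨C, k, fun n hn d => h n hn d fun F hF => trade_gap F hF⟩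

end Vale.Agent.Results.P335.SwitchRapidMixing
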